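import Vale.Agent.N324.Defs
import Vale.Agent.N324.AlgOK

namespace Vale.Agent.Results.P324.A0Windows

open Vale.Agent.P324 Vale.Agent.N324

/-- For every fixed number `m` of machines and every fixed bound `L` on the delays the following
problems are solvable in polynomial time. (1) Jobs of equal length with precedence constraints,
delays, unit communication delays, release dates, deadlines and machine availability periods:
feasibility and the sum of the completion times. (2) The same with due dates: the maximum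
lateness. -/
theorem result (m L : ℕ) (hm : 1 ≤ m) :
    (∃ (f : Inst → Option (List (ℕ × ℕ)))
      (M : Turing.TM2ComputableInPolyTime Inst.code outCode f), (∀ k, Finite (M.tm.Γ k)) ∧
      ∀ I : Inst, 1 ≤ I.p → (∀ u v, I.lag u v ≤ L ∧ I.com u v ≤ 1) →
        (f I = none ∧ ∀ s μ, Sched m I s μ → ¬ Late I s 0) ∨
        ∃ (s : Fin I.G.n → ℕ) (μ : Fin I.G.n → Fin m),
          f I = some (List.ofFn fun v => (s v, (μ v).val)) ∧
          Sched m I (fun v => s v) μ ∧ Late I (fun v => s v) 0 ∧
          ∀ s' μ', Sched m I s' μ' → Late I s' 0 →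
            ∑ v, ((s v : ℝ) + I.p) ≤ ∑ v, (s' v + I.p)) ∧
    (∃ (f : Inst → Option (List (ℕ × ℕ)))
      (M : Turing.TM2ComputableInPolyTime Inst.code outCode f), (∀ k, Finite (M.tm.Γ k)) ∧
      ∀ I : Inst, 1 ≤ I.p → (∀ u v, I.lag u v ≤ L ∧ I.com u v ≤ 1) →
        (f I = none ∧ ∀ s μ, ¬ Sched m I s μ) ∨
        ∃ (s : Fin I.G.n → ℕ) (μ : Fin I.G.n → Fin m),
          f I = some (List.ofFn fun v => (s v, (μ v).val)) ∧ Sched m I (fun v => s v) μ ∧
          ∀ s' μ' x, Sched m I s' μ' → Late I s' x → Late I (fun v => s v) x) := by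
  refine ⟨?_, ?_⟩
  · obtain ⟨M, hM⟩ := exists_machine
      (pt_outOf m (pt_solveD m L Vale.Agent.Lib.PolyTime.PT.id))
    exact ⟨_, M, hM, fun I hp hL => sum_spec hm hp hL⟩
  · obtain ⟨M, hM⟩ := exists_machine
      (pt_outOf m (pt_lateD m L Vale.Agent.Lib.PolyTime.PT.id))
    exact ⟨_, M, hM, fun I hp hL => late_spec hm hp hL⟩

end Vale.Agent.Results.P324.A0Windows
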